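import Vale.Agent.P119.Real.Compare

/-!
# P119: the label-free real world (`helper909`)

A configuration is a finite set `w` of initial data; `R Φ ε w t z` is the state at time `t` of the
particle of the world `w` that started at `z`.  Existence, uniqueness, comparison with `flow`.
-/

open MeasureTheory Filter Topology Set
open scoped NNReal

namespace Vale.Agent.P119.RW

/-- All distances are `> ε`. -/
def Excl (ε : ℝ) (w : Finset Ph) : Prop := ∀ z ∈ w, ∀ z' ∈ w, z ≠ z' → ε < ‖z.1 - z'.1‖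

theorem Excl.mono {ε : ℝ} {w w' : Finset Ph} (h : Excl ε w) (hw : w' ⊆ w) : Excl ε w' :=
  fun z hz z' hz' hne => h z (hw hz) z' (hw hz') hne

/-- The acceleration of `z` in the world `w` when the particles are at `x` (the term `z' = z`
vanishes for radial potentials). -/
noncomputable def acc (Φ : E3 → ℝ) (ε : ℝ) (w : Finset Ph) (x : Ph → E3) (z : Ph) : E3 :=
  -(ε⁻¹ • ∑ z' ∈ w, gradient Φ (ε⁻¹ • (x z - x z')))

/-- Global solutions of Newton's equations in the world `w`. -/
structure IsWorld (Φ : E3 → ℝ) (ε : ℝ) (w : Finset Ph) (γ : ℝ → Ph → Ph) : Prop where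
  init : ∀ z ∈ w, γ 0 z = z
  pos : ∀ z ∈ w, ∀ t, HasDerivAt (fun s => (γ s z).1) (γ t z).2 t
  vel : ∀ z ∈ w, ∀ t, HasDerivAt (fun s => (γ s z).2) (acc Φ ε w (fun z => (γ t z).1) z) t

/-- An enumeration of `w`. -/
noncomputable def enum (w : Finset Ph) : Fin w.card → Ph := fun i => (w.equivFin.symm i : Ph)

/-- The real world. -/
noncomputable def R (Φ : E3 → ℝ) (ε : ℝ) (w : Finset Ph) (t : ℝ) (z : Ph) : Ph :=
  if h : z ∈ w then flow Φ ε t (enum w) (w.equivFin ⟨z, h⟩) else (z.1 + t • z.2, z.2)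

theorem gradient_zero {Φ : E3 → ℝ} (hr : ∀ x y : E3, ‖x‖ = ‖y‖ → Φ x = Φ y) :
    gradient Φ 0 = 0 := by
  have h := gradient_odd hr 0
  rw [neg_zero] at h
  have h2 : (2 : ℝ) • gradient Φ 0 = 0 := by
    rw [two_smul]
    nth_rewrite 1 [h]
    exact neg_add_cancel _
  exact (smul_eq_zero.1 h2).resolve_left two_ne_zero

theorem gradient_far {Φ : E3 → ℝ} (hv : ∀ x : E3, 1 ≤ ‖x‖ → Φ x = 0) {y : E3} (hy : 1 < ‖y‖) :
    gradient Φ y = 0 := by
  have h1 : Φ =ᶠ[𝓝 y] fun _ => (0 : ℝ) := by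
    have h2 : ∀ᶠ x in 𝓝 y, 1 < ‖x‖ := continuous_norm.continuousAt.eventually (lt_mem_nhds hy)
    filter_upwards [h2] with x hx using hv x hx.le
  rw [h1.gradient_eq]
  exact gradient_fun_const y 0

/-- The force vanishes at distances `≥ 1`. -/
theorem gradient_out {Φ : E3 → ℝ} (hΦ : IsPotential Φ) {y : E3} (hy : 1 ≤ ‖y‖) :
    gradient Φ y = 0 := by
  have hy0 : y ≠ 0 := by
    intro h; rw [h, norm_zero] at hy; linarith
  have hc : ContinuousAt (gradient Φ) y := by
    have h1 : ContDiffAt ℝ 2 Φ y := by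
      rcases hΦ.regular with h | ⟨h, -, -⟩
      · exact h.contDiffAt
      · exact h.contDiffAt (isOpen_compl_singleton.mem_nhds hy0)
    have h2 : ContinuousAt (fderiv ℝ Φ) y :=
      (h1.fderiv_right (m := 1) (by norm_num)).continuousAt
    unfold gradient
    exact ((InnerProductSpace.toDual ℝ E3).symm.continuous.continuousAt).comp h2
  -- `y` is a limit of points of norm `> 1`
  have h3 : Tendsto (fun s : ℝ => (1 + s) • y) (𝓝[>] 0) (𝓝 y) := by
    have h4 : Tendsto (fun s : ℝ => (1 + s) • y) (𝓝 0) (𝓝 ((1 + (0 : ℝ)) • y)) :=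
      (Continuous.tendsto (by fun_prop) 0)
    rw [add_zero, one_smul] at h4
    exact h4.mono_left nhdsWithin_le_nhds
  have h5 : Tendsto (fun s : ℝ => gradient Φ ((1 + s) • y)) (𝓝[>] 0) (𝓝 (gradient Φ y)) :=
    hc.tendsto.comp h3
  have h6 : (fun s : ℝ => gradient Φ ((1 + s) • y)) =ᶠ[𝓝[>] 0] fun _ => 0 := by
    filter_upwards [self_mem_nhdsWithin] with s hs
    have hs0 : 0 < s := hs
    apply gradient_far hΦ.vanishing
    rw [norm_smul, Real.norm_eq_abs, abs_of_pos (by linarith)]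
    nlinarith
  exact tendsto_nhds_unique (h5.congr' h6) tendsto_const_nhds

section enum

variable {ε : ℝ} {w : Finset Ph}

theorem enum_injective : Function.Injective (enum w) := fun i j h => by
  have := Subtype.ext (p := fun x => x ∈ w) h
  exact w.equivFin.symm.injective this

theorem enum_mem (i : Fin w.card) : enum w i ∈ w := (w.equivFin.symm i).2

theorem enum_equivFin {z : Ph} (h : z ∈ w) : enum w (w.equivFin ⟨z, h⟩) = z := by
  simp [enum]

theorem sum_enum {M : Type*} [AddCommMonoid M] (g : Ph → M) :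
    ∑ i, g (enum w i) = ∑ z ∈ w, g z := by
  rw [← Finset.sum_coe_sort w g]
  exact Fintype.sum_equiv w.equivFin.symm _ _ fun i => rfl

theorem Excl.enum_mem_excl (h : Excl ε w) : enum w ∈ excl ε w.card := fun i j hij =>
  h _ (enum_mem i) _ (enum_mem j) (fun h' => hij (enum_injective h'))

end enum

theorem accel_eq_sum {Φ : E3 → ℝ} (hr : ∀ x y : E3, ‖x‖ = ‖y‖ → Φ x = Φ y) {ε : ℝ} {n : ℕ}
    (Z : Fin n → Ph) (i : Fin n) :
    accel Φ ε Z i = -(ε⁻¹ • ∑ j, gradient Φ (ε⁻¹ • ((Z i).1 - (Z j).1))) := by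
  unfold accel
  congr 2
  rw [← Finset.add_sum_erase _ _ (Finset.mem_univ i), sub_self, smul_zero, gradient_zero hr,
    zero_add]

section world

variable {Φ : E3 → ℝ} {ε : ℝ} {w : Finset Ph}

/-- Everything about `R` in terms of truncated potentials: for all large `k` the real world is a
world for the truncated potential, and both potentials coincide near all the scaled distances. -/
theorem R_trunc (hΦ : IsPotential Φ) (hε : 0 < ε) (hw : Excl ε w) :
    ∃ k₀ : ℝ, 0 ≤ k₀ ∧ ∀ k, k₀ ≤ k → IsWorld (trunc Φ k) ε w (R Φ ε w) ∧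
      ∀ t, ∀ z ∈ w, ∀ z' ∈ w, z ≠ z' →
        trunc Φ k =ᶠ[𝓝 (ε⁻¹ • ((R Φ ε w t z).1 - (R Φ ε w t z').1))] Φ := by
  obtain ⟨m, hm, hΦm⟩ := hΦ.bddBelow
  have hkin : 0 ≤ kinE (enum w) := Finset.sum_nonneg fun i _ => by positivity
  refine ⟨kinE (enum w) + (w.card : ℝ) ^ 2 * m + 1, by positivity, fun k hk => ?_⟩
  have hk0 : 0 ≤ k := le_trans (by positivity) hk
  have hsh : enum w ∈ shell w.card m k := by
    change kinE (enum w) + (w.card : ℝ) ^ 2 * m < k
    linarith
  obtain ⟨S, hS0, -, -, -, htraj, hflow⟩ := exists_shell_flow (n := w.card) hΦ hm hk0 hΦm hε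
  have hfl := hflow (enum w) hw.enum_mem_excl hsh
  have hRS : ∀ t z (h : z ∈ w), R Φ ε w t z = S t (enum w) (w.equivFin ⟨z, h⟩) := by
    intro t z h
    unfold R
    rw [dif_pos h, (hfl t).1]
  have hRe : ∀ t i, R Φ ε w t (enum w i) = S t (enum w) i := by
    intro t i
    rw [hRS t _ (enum_mem i)]
    congr 1
    apply enum_injective
    rw [enum_equivFin]
  have hT := trunc_isPotential hΦ hk0
  refine ⟨⟨fun z hz => ?_, fun z hz t => ?_, fun z hz t => ?_⟩, fun t z hz z' hz' hne => ?_⟩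
  · rw [hRS 0 z hz, hS0, enum_equivFin]
  · have h1 := (htraj (enum w)).pos t (w.equivFin ⟨z, hz⟩)
    rw [hRS t z hz]
    exact h1.congr_of_eventuallyEq (Eventually.of_forall fun s => by simp only [hRS s z hz])
  · have h1 := (htraj (enum w)).vel t (w.equivFin ⟨z, hz⟩)
    have h2 : acc (trunc Φ k) ε w (fun z => (R Φ ε w t z).1) z =
        accel (trunc Φ k) ε (S t (enum w)) (w.equivFin ⟨z, hz⟩) := by
      rw [accel_eq_sum hT.radial']
      unfold acc
      congr 2
      rw [← sum_enum]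
      refine Finset.sum_congr rfl fun i _ => ?_
      simp only [hRe, hRS t z hz]
    rw [h2]
    exact h1.congr_of_eventuallyEq (Eventually.of_forall fun s => by simp only [hRS s z hz])
  · have h1 := (hfl t).2 (w.equivFin ⟨z, hz⟩) (w.equivFin ⟨z', hz'⟩) (by
      intro h
      have := w.equivFin.injective h
      exact hne (Subtype.mk_eq_mk.1 this))
    rw [hRS t z hz, hRS t z' hz']
    exact h1

theorem acc_congr_of_trunc (hΦ : IsPotential Φ) {k : ℝ} (hk : 0 ≤ k) {x : Ph → E3} {z : Ph}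
    (h : ∀ z' ∈ w, z ≠ z' → trunc Φ k =ᶠ[𝓝 (ε⁻¹ • (x z - x z'))] Φ) :
    acc (trunc Φ k) ε w x z = acc Φ ε w x z := by
  unfold acc
  congr 2
  refine Finset.sum_congr rfl fun z' hz' => ?_
  by_cases hne : z = z'
  · subst hne
    rw [sub_self, smul_zero, gradient_zero hΦ.radial',
      gradient_zero (trunc_isPotential hΦ hk).radial']
  · exact (h z' hz' hne).gradient_eq

theorem R_isWorld (hΦ : IsPotential Φ) (hε : 0 < ε) (hw : Excl ε w) :
    IsWorld Φ ε w (R Φ ε w) := by
  obtain ⟨k, hk0, hk⟩ := R_trunc hΦ hε hw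
  obtain ⟨h1, h2⟩ := hk k le_rfl
  refine ⟨h1.init, h1.pos, fun z hz t => ?_⟩
  have h3 := acc_congr_of_trunc (ε := ε) (w := w) (x := fun z => (R Φ ε w t z).1) (z := z) hΦ hk0
    (fun z' hz' hne => h2 t z hz z' hz' hne)
  have h4 := h1.vel z hz t
  rw [h3] at h4
  exact h4

theorem IsWorld.continuous_pos {γ : ℝ → Ph → Ph} (h : IsWorld Φ ε w γ) {z : Ph} (hz : z ∈ w) :
    Continuous fun t => (γ t z).1 :=
  continuous_iff_continuousAt.2 fun t => (h.pos z hz t).continuousAt

theorem IsWorld.continuous_vel {γ : ℝ → Ph → Ph} (h : IsWorld Φ ε w γ) {z : Ph} (hz : z ∈ w) :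
    Continuous fun t => (γ t z).2 :=
  continuous_iff_continuousAt.2 fun t => (h.vel z hz t).continuousAt

/-- A world in the enumeration. -/
theorem IsWorld.isNewton {γ : ℝ → Ph → Ph} (hΦ : IsPotential Φ) (h : IsWorld Φ ε w γ) :
    IsNewton Φ ε (fun t i => γ t (enum w i)) := by
  intro t i
  refine ⟨h.pos _ (enum_mem i) t, ?_⟩
  have h1 := h.vel _ (enum_mem i) t
  have h2 : acc Φ ε w (fun z => (γ t z).1) (enum w i) =
      accel Φ ε (fun i => γ t (enum w i)) i := by
    rw [accel_eq_sum hΦ.radial']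
    unfold acc
    congr 2
    rw [← sum_enum]
  rw [h2] at h1
  exact h1

theorem R_unique {γ : ℝ → Ph → Ph} (hΦ : IsPotential Φ) (hε : 0 < ε) (hw : Excl ε w)
    (h : IsWorld Φ ε w γ) {z : Ph} (hz : z ∈ w) (t : ℝ) : γ t z = R Φ ε w t z := by
  obtain ⟨k, hk0, hk⟩ := R_trunc hΦ hε hw
  obtain ⟨h1, h2⟩ := hk k le_rfl
  have hT := trunc_isPotential hΦ hk0
  obtain ⟨K, M, hK, hM⟩ := gradient_lipschitz_bounded (trunc_smooth hΦ k) hT.vanishing
  obtain ⟨K', hK'⟩ := accG_lipschitz (n := w.card) hK ε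
  have h3 : ∀ t, HasDerivAt (fun (t : ℝ) (i : Fin w.card) => R Φ ε w t (enum w i))
      (cfield (accG (trunc Φ k) ε) (fun i => R Φ ε w t (enum w i))) t := by
    intro t
    rw [hasDerivAt_pi]
    intro i
    have h4 := (h1.isNewton hT) t i
    exact h4.1.prodMk h4.2
  have h5 := newton_unique (Ψ := trunc Φ k) hK' h3 (fun t i j hij => h2 t _ (enum_mem i) _
    (enum_mem j) (fun h' => hij (enum_injective h'))) (h.isNewton hΦ) (by
      funext i
      rw [h.init _ (enum_mem i), h1.init _ (enum_mem i)])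
  have h6 := congrFun (congrFun h5 t) (w.equivFin ⟨z, hz⟩)
  simp only [enum_equivFin] at h6
  exact h6

/-- `R` computes the flow of labelled configurations. -/
theorem R_image (hΦ : IsPotential Φ) (hε : 0 < ε) {n : ℕ} {Z : Fin n → Ph} (hZ : Z ∈ excl ε n)
    (t : ℝ) (i : Fin n) : R Φ ε (Finset.univ.image Z) t (Z i) = flow Φ ε t Z i := by
  classical
  have hinj : Function.Injective Z := by
    intro i j hij
    by_contra hne
    have := hZ i j hne
    rw [hij, sub_self, norm_zero] at this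
    linarith
  have hw : Excl ε (Finset.univ.image Z) := by
    intro z hz z' hz' hne
    obtain ⟨i, -, rfl⟩ := Finset.mem_image.1 hz
    obtain ⟨j, -, rfl⟩ := Finset.mem_image.1 hz'
    exact hZ i j (fun h => hne (by rw [h]))
  -- both sides are restrictions of solutions
  obtain ⟨k, hk0, hk⟩ := R_trunc hΦ hε hw
  obtain ⟨h1, h2⟩ := hk k le_rfl
  have hT := trunc_isPotential hΦ hk0
  obtain ⟨K, M, hK, hM⟩ := gradient_lipschitz_bounded (trunc_smooth hΦ k) hT.vanishing
  obtain ⟨K', hK'⟩ := accG_lipschitz (n := n) hK ε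
  have hmem : ∀ i, Z i ∈ Finset.univ.image Z := fun i => Finset.mem_image_of_mem _ (Finset.mem_univ i)
  have h3 : ∀ t, HasDerivAt (fun (t : ℝ) (i : Fin n) => R Φ ε (Finset.univ.image Z) t (Z i))
      (cfield (accG (trunc Φ k) ε) (fun i => R Φ ε (Finset.univ.image Z) t (Z i))) t := by
    intro t
    rw [hasDerivAt_pi]
    intro i
    have h5 := h1.vel _ (hmem i) t
    have h6 : acc (trunc Φ k) ε (Finset.univ.image Z) (fun z => (R Φ ε (Finset.univ.image Z) t z).1)
        (Z i) = accel (trunc Φ k) ε (fun i => R Φ ε (Finset.univ.image Z) t (Z i)) i := by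
      rw [accel_eq_sum hT.radial']
      unfold acc
      congr 2
      rw [Finset.sum_image (fun a _ b _ hab => hinj hab)]
    rw [h6] at h5
    exact (h1.pos _ (hmem i) t).prodMk h5
  have h7 := flow_eq_of (Ψ := trunc Φ k) hK' h3 (fun t i j hij => h2 t _ (hmem i) _ (hmem j)
    (fun h' => hij (hinj h'))) t
  have h8 : (fun i => R Φ ε (Finset.univ.image Z) 0 (Z i)) = Z :=
    funext fun i => h1.init _ (hmem i)
  simp only [h8] at h7
  rw [h7]

end world

end Vale.Agent.P119.RW
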