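import Vale.Agent.P119.Real.Local

/-!
# P119: energy of a subsystem of the real world (`helper909`)

`EN Φ ε w A s` is the energy of the particles of `A` in the world `w` at time `s`.

* `EN_const`: it is constant on a time interval on which `A` has no contact with the rest;
* `EN_union`: it is additive over sets without contact;
* `kin_le_EN`: it bounds the kinetic energy (stability);
* `EN_zero`: at time `0` it is the kinetic energy;
* `mom_const`: conservation of momentum.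
-/

open MeasureTheory Filter Topology Set
open scoped NNReal

namespace Vale.Agent.P119.RW

/-- Stability with constant `B`. -/
def StableWith (Φ : E3 → ℝ) (B : ℝ) : Prop :=
  0 ≤ B ∧ ∀ (n : ℕ) (x : Fin n → E3), Function.Injective x →
    -(B * n) ≤ ∑ i, ∑ j ∈ Finset.Ioi i, Φ (x i - x j)

/-- Twice the pair energy of `A` at the positions `x`. -/
noncomputable def pot2 (Φ : E3 → ℝ) (ε : ℝ) (A : Finset Ph) (x : Ph → E3) : ℝ :=
  ∑ z ∈ A, ∑ z' ∈ A.erase z, Φ (ε⁻¹ • (x z - x z'))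

/-- The energy of `A` in the world `w` at time `s`. -/
noncomputable def EN (Φ : E3 → ℝ) (ε : ℝ) (w A : Finset Ph) (s : ℝ) : ℝ :=
  ∑ z ∈ A, ‖(R Φ ε w s z).2‖ ^ 2 / 2 + pot2 Φ ε A (fun z => (R Φ ε w s z).1) / 2

section pairs

variable {Φ : E3 → ℝ} {ε : ℝ}

theorem even_of_potential (hΦ : IsPotential Φ) (y : E3) : Φ (-y) = Φ y :=
  hΦ.radial' _ _ (norm_neg y)

theorem pairTot_double (hΦ : IsPotential Φ) {n : ℕ} (x : Fin n → E3) :
    ∑ i, ∑ j ∈ Finset.univ.erase i, Φ (x i - x j) = 2 * pairTot Φ x := by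
  have h := sum_erase_eq (fun i j => Φ (x i - x j))
  rw [h]
  unfold pairTot
  rw [Finset.mul_sum]
  refine Finset.sum_congr rfl fun i _ => ?_
  rw [Finset.mul_sum]
  refine Finset.sum_congr rfl fun j _ => ?_
  rw [← neg_sub (x i) (x j), even_of_potential hΦ]
  ring

theorem pot2_enum (hΦ : IsPotential Φ) (A : Finset Ph) (x : Ph → E3) :
    pot2 Φ ε A x = 2 * pairTot Φ (fun i => ε⁻¹ • x (enum A i)) := by
  classical
  rw [← pairTot_double hΦ]
  unfold pot2
  rw [← sum_enum]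
  refine Finset.sum_congr rfl fun i _ => ?_
  have h1 : A.erase (enum A i) = (Finset.univ.erase i).image (enum A) := by
    ext z
    rw [Finset.mem_erase, Finset.mem_image]
    constructor
    · rintro ⟨hne, hz⟩
      refine ⟨A.equivFin ⟨z, hz⟩, ?_, enum_equivFin hz⟩
      rw [Finset.mem_erase]
      refine ⟨fun h => hne ?_, Finset.mem_univ _⟩
      rw [← h, enum_equivFin]
    · rintro ⟨j, hj, rfl⟩
      rw [Finset.mem_erase] at hj
      exact ⟨fun h => hj.1 (enum_injective h), enum_mem j⟩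
  rw [h1, Finset.sum_image (fun a _ b _ hab => enum_injective hab)]
  refine Finset.sum_congr rfl fun j _ => ?_
  rw [smul_sub]

/-- Stability without injectivity for continuous potentials. -/
theorem StableWith.of_continuous {B : ℝ} (h : StableWith Φ B) (hc : Continuous Φ) {n : ℕ}
    (x : Fin n → E3) : -(B * n) ≤ pairTot Φ x := by
  -- shift the points by `δ i e`
  obtain ⟨e, he⟩ : ∃ e : E3, e ≠ 0 := exists_ne 0
  have h1 : ∀ᶠ δ : ℝ in 𝓝[≠] 0, Function.Injective fun i : Fin n => x i + (δ * (i : ℝ)) • e := by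
    have h2 : ∀ i j : Fin n, i ≠ j → ∀ᶠ δ : ℝ in 𝓝[≠] 0,
        x i + (δ * (i : ℝ)) • e ≠ x j + (δ * (j : ℝ)) • e := by
      intro i j hij
      have hij' : ((i : ℕ) : ℝ) - ((j : ℕ) : ℝ) ≠ 0 := by
        rw [sub_ne_zero]
        exact_mod_cast fun h => hij (Fin.ext h)
      by_cases hx : x i = x j
      · filter_upwards [self_mem_nhdsWithin] with δ hδ heq
        rw [hx, add_right_inj, ← sub_eq_zero, ← sub_smul, ← mul_sub] at heq
        rcases smul_eq_zero.1 heq with h | h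
        · exact (mul_ne_zero hδ hij') h
        · exact he h
      · have h3 : ContinuousAt (fun δ : ℝ => x i + (δ * (i : ℝ)) • e -
            (x j + (δ * (j : ℝ)) • e)) 0 := by fun_prop
        have h4 : (fun δ : ℝ => x i + (δ * (i : ℝ)) • e - (x j + (δ * (j : ℝ)) • e)) 0 ≠ 0 := by
          simp only [zero_mul, zero_smul, add_zero]
          exact sub_ne_zero.2 hx
        have h5 := h3.eventually_ne h4
        have h5' : ∀ᶠ δ : ℝ in 𝓝[≠] 0, x i + (δ * (i : ℝ)) • e - (x j + (δ * (j : ℝ)) • e) ≠ 0 :=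
          h5.filter_mono nhdsWithin_le_nhds
        exact h5'.mono fun δ hδ heq => hδ (sub_eq_zero.2 heq)
    have h6 : ∀ᶠ δ : ℝ in 𝓝[≠] 0, ∀ i j : Fin n, i ≠ j →
        x i + (δ * (i : ℝ)) • e ≠ x j + (δ * (j : ℝ)) • e := by
      rw [eventually_all]
      intro i
      rw [eventually_all]
      intro j
      by_cases hij : i = j
      · exact Eventually.of_forall fun δ h => absurd hij h
      · exact (h2 i j hij).mono fun δ hδ _ => hδ
    refine h6.mono fun δ hδ i j hij => ?_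
    by_contra hne
    exact hδ i j hne hij
  have h7 : Tendsto (fun δ : ℝ => pairTot Φ fun i : Fin n => x i + (δ * (i : ℝ)) • e) (𝓝[≠] 0)
      (𝓝 (pairTot Φ x)) := by
    have h8 : Continuous fun δ : ℝ => pairTot Φ fun i : Fin n => x i + (δ * (i : ℝ)) • e := by
      unfold pairTot
      refine continuous_finsetSum _ fun i _ => continuous_finsetSum _ fun j _ => ?_
      exact hc.comp (by fun_prop)
    have h9 := (h8.tendsto 0).mono_left (nhdsWithin_le_nhds (s := {0}ᶜ))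
    simp only [zero_mul, zero_smul, add_zero] at h9
    exact h9
  exact ge_of_tendsto h7 (h1.mono fun δ hδ => h.2 n _ hδ)

end pairs

section world

variable {Φ : E3 → ℝ} {ε : ℝ} {w : Finset Ph}

/-- In the real world two particles are never at the same place if the potential is singular. -/
theorem R_diff (hΦ : IsPotential Φ) (hε : 0 < ε) (hw : Excl ε w) (t : ℝ) {z z' : Ph} (hz : z ∈ w)
    (hz' : z' ∈ w) (hne : z ≠ z') :
    DifferentiableAt ℝ Φ (ε⁻¹ • ((R Φ ε w t z).1 - (R Φ ε w t z').1)) := by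
  obtain ⟨k, hk0, hk⟩ := R_trunc hΦ hε hw
  obtain ⟨-, h2⟩ := hk k le_rfl
  exact (((trunc_smooth hΦ k).differentiable (by norm_num)) _).congr_of_eventuallyEq
    (h2 t z hz z' hz' hne).symm

theorem R_ne_of_singular (hΦ : IsPotential Φ) (hsing : Tendsto Φ (𝓝[≠] 0) atTop) (hε : 0 < ε)
    (hw : Excl ε w) (t : ℝ) {z z' : Ph} (hz : z ∈ w)
    (hz' : z' ∈ w) (hne : z ≠ z') : (R Φ ε w t z).1 ≠ (R Φ ε w t z').1 := by
  intro h
  have h1 := (R_diff hΦ hε hw t hz hz' hne).continuousAt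
  rw [h, sub_self, smul_zero] at h1
  have h2 : Tendsto Φ (𝓝[≠] 0) (𝓝 (Φ 0)) := h1.tendsto.mono_left nhdsWithin_le_nhds
  exact not_tendsto_nhds_of_tendsto_atTop hsing _ h2

theorem pot2_ge (hΦ : IsPotential Φ) {B : ℝ} (hB : StableWith Φ B) (hε : 0 < ε) (hw : Excl ε w)
    {A : Finset Ph} (hA : A ⊆ w) (t : ℝ) :
    -(2 * B * A.card) ≤ pot2 Φ ε A (fun z => (R Φ ε w t z).1) := by
  rw [pot2_enum hΦ]
  have key : -(B * A.card) ≤ pairTot Φ (fun i => ε⁻¹ • (R Φ ε w t (enum A i)).1) := by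
    rcases hΦ.regular with hreg | ⟨-, hsing, -⟩
    · exact hB.of_continuous hreg.continuous _
    · refine hB.2 _ _ ?_
      intro i j hij
      by_contra hne
      have h1 : (R Φ ε w t (enum A i)).1 = (R Φ ε w t (enum A j)).1 :=
        smul_right_injective _ (inv_ne_zero hε.ne') hij
      exact R_ne_of_singular hΦ hsing hε hw t (hA (enum_mem i)) (hA (enum_mem j))
        (fun h => hne (enum_injective h)) h1
  linarith

/-- The kinetic energy is bounded by the energy. -/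
theorem kin_le_EN (hΦ : IsPotential Φ) {B : ℝ} (hB : StableWith Φ B) (hε : 0 < ε) (hw : Excl ε w)
    {A : Finset Ph} (hA : A ⊆ w) (t : ℝ) :
    ∑ z ∈ A, ‖(R Φ ε w t z).2‖ ^ 2 / 2 ≤ EN Φ ε w A t + B * A.card := by
  unfold EN
  linarith [pot2_ge hΦ hB hε hw hA t]

theorem EN_zero (hΦ : IsPotential Φ) (hε : 0 < ε) (hw : Excl ε w) {A : Finset Ph} (hA : A ⊆ w) :
    EN Φ ε w A 0 = ∑ z ∈ A, ‖z.2‖ ^ 2 / 2 := by
  classical
  have W := R_isWorld hΦ hε hw
  unfold EN
  have h1 : pot2 Φ ε A (fun z => (R Φ ε w 0 z).1) = 0 := by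
    unfold pot2
    refine Finset.sum_eq_zero fun z hz => Finset.sum_eq_zero fun z' hz' => ?_
    rw [Finset.mem_erase] at hz'
    apply hΦ.vanishing
    beta_reduce
    rw [W.init z (hA hz), W.init z' (hA hz'.2)]
    exact far_scaled hε (hw z (hA hz) z' (hA hz'.2) hz'.1.symm).le
  rw [h1, zero_div, add_zero]
  exact Finset.sum_congr rfl fun z hz => by rw [W.init z (hA hz)]

/-- Additivity for sets without contact. -/
theorem EN_union (hΦ : IsPotential Φ) (hε : 0 < ε) {A B : Finset Ph}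
    (hAB : Disjoint A B) {s : ℝ} (H : ∀ z ∈ A, ∀ z' ∈ B, ¬Contact Φ ε w s z z') :
    EN Φ ε w (A ∪ B) s = EN Φ ε w A s + EN Φ ε w B s := by
  classical
  have h1 : ∀ z ∈ A, ∑ z' ∈ (A ∪ B).erase z, Φ (ε⁻¹ • ((R Φ ε w s z).1 - (R Φ ε w s z').1)) =
      ∑ z' ∈ A.erase z, Φ (ε⁻¹ • ((R Φ ε w s z).1 - (R Φ ε w s z').1)) := by
    intro z hz
    have hzB : z ∉ B := Finset.disjoint_left.1 hAB hz
    rw [Finset.erase_union_distrib, Finset.erase_eq_of_notMem hzB,
      Finset.sum_union (hAB.mono_left (Finset.erase_subset _ _)), Finset.sum_eq_zero (s := B),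
      add_zero]
    intro z' hz'
    exact hΦ.vanishing _ (far_scaled hε (not_lt.1 (H z hz z' hz')))
  have h2 : ∀ z ∈ B, ∑ z' ∈ (A ∪ B).erase z, Φ (ε⁻¹ • ((R Φ ε w s z).1 - (R Φ ε w s z').1)) =
      ∑ z' ∈ B.erase z, Φ (ε⁻¹ • ((R Φ ε w s z).1 - (R Φ ε w s z').1)) := by
    intro z hz
    have hzA : z ∉ A := Finset.disjoint_right.1 hAB hz
    rw [Finset.erase_union_distrib, Finset.erase_eq_of_notMem hzA,
      Finset.sum_union (hAB.mono_right (Finset.erase_subset _ _)), Finset.sum_eq_zero (s := A),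
      zero_add]
    intro z' hz'
    refine hΦ.vanishing _ (far_scaled hε (not_lt.1 fun h => H z' hz' z hz ?_))
    unfold Contact
    rw [norm_sub_rev]
    exact h
  unfold EN pot2
  rw [Finset.sum_union hAB, Finset.sum_union hAB, Finset.sum_congr rfl h1,
    Finset.sum_congr rfl h2]
  ring

/-- The derivative of the energy of `A` when `A` has no contact with the rest. -/
theorem EN_hasDerivAt (hΦ : IsPotential Φ) (hε : 0 < ε) (hw : Excl ε w) {A : Finset Ph}
    (hA : A ⊆ w) {s : ℝ} (H : ∀ z ∈ A, ∀ z' ∈ w, z' ∉ A → ¬Contact Φ ε w s z z') :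
    HasDerivAt (fun s => EN Φ ε w A s) 0 s := by
  classical
  have W := R_isWorld hΦ hε hw
  have hk : HasDerivAt (fun s => ∑ z ∈ A, ‖(R Φ ε w s z).2‖ ^ 2 / 2)
      (∑ z ∈ A, inner ℝ (acc Φ ε w (fun z => (R Φ ε w s z).1) z) (R Φ ε w s z).2) s := by
    refine HasDerivAt.fun_sum fun z hz => ?_
    refine HasDerivAt.congr_deriv (((W.vel z (hA hz) s).norm_sq).div_const 2) ?_
    rw [real_inner_comm]; ring
  have hacc : ∀ z ∈ A, acc Φ ε w (fun z => (R Φ ε w s z).1) z =
      ∑ z' ∈ A.erase z, -(ε⁻¹ • gradient Φ (ε⁻¹ • ((R Φ ε w s z).1 - (R Φ ε w s z').1))) := by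
    intro z hz
    unfold acc
    rw [Finset.smul_sum, ← Finset.sum_neg_distrib]
    symm
    refine Finset.sum_subset ((Finset.erase_subset _ _).trans hA) fun z' hz' hn => ?_
    rw [neg_eq_zero]
    by_cases hzz : z' = z
    · rw [hzz, sub_self, smul_zero, gradient_zero hΦ.radial', smul_zero]
    · have : z' ∉ A := fun h => hn (Finset.mem_erase.2 ⟨hzz, h⟩)
      rw [gradient_out hΦ (far_scaled hε (not_lt.1 (H z hz z' hz' this))), smul_zero]
  have hp : HasDerivAt (fun s => pot2 Φ ε A (fun z => (R Φ ε w s z).1))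
      (∑ z ∈ A, ∑ z' ∈ A.erase z, inner ℝ
        (gradient Φ (ε⁻¹ • ((R Φ ε w s z).1 - (R Φ ε w s z').1)))
        (ε⁻¹ • ((R Φ ε w s z).2 - (R Φ ε w s z').2))) s := by
    unfold pot2
    refine HasDerivAt.fun_sum fun z hz => HasDerivAt.fun_sum fun z' hz' => ?_
    rw [Finset.mem_erase] at hz'
    have hy : HasDerivAt (fun τ => ε⁻¹ • ((R Φ ε w τ z).1 - (R Φ ε w τ z').1))
        (ε⁻¹ • ((R Φ ε w s z).2 - (R Φ ε w s z').2)) s :=
      ((W.pos z (hA hz) s).sub (W.pos z' (hA hz'.2) s)).const_smul ε⁻¹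
    have h2 := (R_diff hΦ hε hw s (hA hz) (hA hz'.2) hz'.1.symm).hasFDerivAt.comp_hasDerivAt s hy
    rw [inner_gradient_eq]
    exact h2
  have hsum : ∑ z ∈ A, ∑ z' ∈ A.erase z, inner ℝ
        (gradient Φ (ε⁻¹ • ((R Φ ε w s z).1 - (R Φ ε w s z').1)))
        (ε⁻¹ • ((R Φ ε w s z).2 - (R Φ ε w s z').2)) =
      -2 * ∑ z ∈ A, inner ℝ (acc Φ ε w (fun z => (R Φ ε w s z).1) z) (R Φ ε w s z).2 := by
    -- split `v z - v z'` and use antisymmetry
    set F : Ph → Ph → E3 := fun z z' =>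
      ε⁻¹ • gradient Φ (ε⁻¹ • ((R Φ ε w s z).1 - (R Φ ε w s z').1)) with hF
    have hanti : ∀ z z', F z' z = -F z z' := by
      intro z z'
      simp only [hF]
      rw [← neg_sub ((R Φ ε w s z).1) ((R Φ ε w s z').1), smul_neg, gradient_odd hΦ.radial',
        smul_neg]
    have e1 : ∀ z ∈ A, ∑ z' ∈ A.erase z, inner ℝ
        (gradient Φ (ε⁻¹ • ((R Φ ε w s z).1 - (R Φ ε w s z').1)))
        (ε⁻¹ • ((R Φ ε w s z).2 - (R Φ ε w s z').2)) =
        ∑ z' ∈ A, (inner ℝ (F z z') (R Φ ε w s z).2 - inner ℝ (F z z') (R Φ ε w s z').2) := by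
      intro z hz
      rw [← Finset.add_sum_erase A _ hz, sub_self, zero_add]
      refine Finset.sum_congr rfl fun z' _ => ?_
      rw [← inner_sub_right, hF, real_inner_smul_left, real_inner_smul_right]
    rw [Finset.sum_congr rfl e1]
    simp only [Finset.sum_sub_distrib]
    have e2 : ∑ z ∈ A, ∑ z' ∈ A, inner ℝ (F z z') (R Φ ε w s z').2 =
        -∑ z ∈ A, ∑ z' ∈ A, inner ℝ (F z z') (R Φ ε w s z).2 := by
      rw [Finset.sum_comm, ← Finset.sum_neg_distrib]
      refine Finset.sum_congr rfl fun z _ => ?_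
      rw [← Finset.sum_neg_distrib]
      refine Finset.sum_congr rfl fun z' _ => ?_
      rw [hanti z z', inner_neg_left]
    have e3 : ∀ z ∈ A, inner ℝ (acc Φ ε w (fun z => (R Φ ε w s z).1) z) (R Φ ε w s z).2 =
        -∑ z' ∈ A, inner ℝ (F z z') (R Φ ε w s z).2 := by
      intro z hz
      rw [hacc z hz, sum_inner, ← Finset.sum_neg_distrib, ← Finset.add_sum_erase A _ hz]
      have e4 : F z z = 0 := by
        simp only [hF, sub_self, smul_zero, gradient_zero hΦ.radial']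
      rw [e4, inner_zero_left, neg_zero, zero_add]
      refine Finset.sum_congr rfl fun z' _ => ?_
      rw [inner_neg_left]
    rw [e2, Finset.sum_congr rfl e3, Finset.sum_neg_distrib]
    ring
  unfold EN
  refine (hk.add (hp.div_const 2)).congr_deriv ?_
  rw [hsum]
  ring

theorem EN_const (hΦ : IsPotential Φ) (hε : 0 < ε) (hw : Excl ε w) {A : Finset Ph}
    (hA : A ⊆ w) {a b : ℝ} (hab : a ≤ b)
    (H : ∀ s ∈ Ioo a b, ∀ z ∈ A, ∀ z' ∈ w, z' ∉ A → ¬Contact Φ ε w s z z') :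
    EN Φ ε w A b = EN Φ ε w A a := by
  rcases hab.eq_or_lt with h | hlt
  · rw [h]
  have hc : Continuous fun s => EN Φ ε w A s := by
    classical
    have W := R_isWorld hΦ hε hw
    unfold EN pot2
    refine Continuous.add ?_ (Continuous.div_const ?_ _)
    · refine continuous_finsetSum _ fun z hz => ?_
      have := W.continuous_vel (hA hz)
      fun_prop
    · refine continuous_finsetSum _ fun z hz => continuous_finsetSum _ fun z' hz' => ?_
      rw [Finset.mem_erase] at hz'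
      have h1 := W.continuous_pos (hA hz)
      have h2 := W.continuous_pos (hA hz'.2)
      rw [continuous_iff_continuousAt]
      intro t
      have h3 : Continuous fun t => ε⁻¹ • ((R Φ ε w t z).1 - (R Φ ε w t z').1) := by fun_prop
      exact ContinuousAt.comp (f := fun t => ε⁻¹ • ((R Φ ε w t z).1 - (R Φ ε w t z').1))
        (R_diff hΦ hε hw t (hA hz) (hA hz'.2) hz'.1.symm).continuousAt h3.continuousAt
  obtain ⟨c, hc1, hc2⟩ := exists_hasDerivAt_eq_slope (fun s => EN Φ ε w A s) (fun _ => 0) hlt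
    hc.continuousOn (fun s hs => EN_hasDerivAt hΦ hε hw hA (H s hs))
  have h3 : b - a ≠ 0 := by linarith
  rw [eq_comm, div_eq_zero_iff] at hc2
  rcases hc2 with h | h
  · linarith
  · exact absurd h h3

/-- Energy bound for the whole world. -/
theorem R_energy (hΦ : IsPotential Φ) {B : ℝ} (hB : StableWith Φ B) (hε : 0 < ε) (hw : Excl ε w)
    (t : ℝ) :
    ∑ z ∈ w, ‖(R Φ ε w t z).2‖ ^ 2 ≤ ∑ z ∈ w, ‖z.2‖ ^ 2 + 2 * B * w.card := by
  have h1 := kin_le_EN hΦ hB hε hw (Finset.Subset.refl w) t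
  have h2 : EN Φ ε w w t = EN Φ ε w w 0 := by
    rcases le_total 0 t with h | h
    · exact EN_const hΦ hε hw (Finset.Subset.refl w) h
        (fun s _ z _ z' hz' hn => absurd hz' hn)
    · exact (EN_const hΦ hε hw (Finset.Subset.refl w) h
        (fun s _ z _ z' hz' hn => absurd hz' hn)).symm
  rw [h2, EN_zero hΦ hε hw (Finset.Subset.refl w), ← Finset.sum_div, ← Finset.sum_div] at h1
  linarith

/-- Energy bound for a subset that has no contact with the rest until `T`. -/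
theorem R_energy_sub (hΦ : IsPotential Φ) {B : ℝ} (hB : StableWith Φ B) (hε : 0 < ε)
    (hw : Excl ε w) {A : Finset Ph} (hA : A ⊆ w) {T : ℝ} (hT : 0 ≤ T)
    (H : ∀ s ∈ Ioo 0 T, ∀ z ∈ A, ∀ z' ∈ w, z' ∉ A → ¬Contact Φ ε w s z z') :
    ∑ z ∈ A, ‖(R Φ ε w T z).2‖ ^ 2 ≤ ∑ z ∈ A, ‖z.2‖ ^ 2 + 2 * B * A.card := by
  have h1 := kin_le_EN hΦ hB hε hw hA T
  rw [EN_const hΦ hε hw hA hT H, EN_zero hΦ hε hw hA, ← Finset.sum_div, ← Finset.sum_div] at h1
  linarith

/-- Conservation of momentum. -/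
theorem mom_const (hΦ : IsPotential Φ) (hε : 0 < ε) (hw : Excl ε w) {A : Finset Ph}
    (hA : A ⊆ w) {a b : ℝ} (hab : a ≤ b)
    (H : ∀ s ∈ Ioo a b, ∀ z ∈ A, ∀ z' ∈ w, z' ∉ A → ¬Contact Φ ε w s z z') :
    ∑ z ∈ A, (R Φ ε w b z).2 = ∑ z ∈ A, (R Φ ε w a z).2 := by
  classical
  have W := R_isWorld hΦ hε hw
  rcases hab.eq_or_lt with h | hlt
  · rw [h]
  have hder : ∀ s ∈ Ioo a b, HasDerivAt (fun s => ∑ z ∈ A, (R Φ ε w s z).2) 0 s := by
    intro s hs
    have hk : HasDerivAt (fun s => ∑ z ∈ A, (R Φ ε w s z).2)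
        (∑ z ∈ A, acc Φ ε w (fun z => (R Φ ε w s z).1) z) s :=
      HasDerivAt.fun_sum fun z hz => W.vel z (hA hz) s
    refine hk.congr_deriv ?_
    set F : Ph → Ph → E3 := fun z z' =>
      ε⁻¹ • gradient Φ (ε⁻¹ • ((R Φ ε w s z).1 - (R Φ ε w s z').1)) with hF
    have hanti : ∀ z z', F z' z = -F z z' := by
      intro z z'
      simp only [hF]
      rw [← neg_sub ((R Φ ε w s z).1) ((R Φ ε w s z').1), smul_neg, gradient_odd hΦ.radial',
        smul_neg]
    have hacc : ∀ z ∈ A, acc Φ ε w (fun z => (R Φ ε w s z).1) z = -∑ z' ∈ A, F z z' := by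
      intro z hz
      unfold acc
      rw [Finset.smul_sum]
      congr 1
      symm
      refine Finset.sum_subset hA fun z' hz' hn => ?_
      simp only [hF]
      rw [gradient_out hΦ (far_scaled hε (not_lt.1 (H s hs z hz z' hz' hn))), smul_zero]
    rw [Finset.sum_congr rfl hacc, Finset.sum_neg_distrib, neg_eq_zero]
    have h1 : ∑ z ∈ A, ∑ z' ∈ A, F z z' = -∑ z ∈ A, ∑ z' ∈ A, F z z' := by
      conv_lhs => rw [Finset.sum_comm]
      rw [← Finset.sum_neg_distrib]
      refine Finset.sum_congr rfl fun z _ => ?_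
      rw [← Finset.sum_neg_distrib]
      exact Finset.sum_congr rfl fun z' _ => hanti z z'
    have h2 : (2 : ℝ) • ∑ z ∈ A, ∑ z' ∈ A, F z z' = 0 := by
      rw [two_smul]
      nth_rewrite 1 [h1]
      exact neg_add_cancel _
    exact (smul_eq_zero.1 h2).resolve_left two_ne_zero
  have hc : Continuous fun s => ∑ z ∈ A, (R Φ ε w s z).2 :=
    continuous_finsetSum _ fun z hz => W.continuous_vel (hA hz)
  -- constant on the closure
  have hf : ∀ s ∈ Ioo a b, ∀ r ∈ Ioo a b, ∑ z ∈ A, (R Φ ε w s z).2 = ∑ z ∈ A, (R Φ ε w r z).2 := by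
    intro s hs r hr
    refine (convex_Ioo a b).is_const_of_fderivWithin_eq_zero (𝕜 := ℝ)
      (f := fun s => ∑ z ∈ A, (R Φ ε w s z).2) ?_ ?_ hs hr
    · exact fun s hs => (hder s hs).differentiableAt.differentiableWithinAt
    · intro s hs
      rw [fderivWithin_of_isOpen isOpen_Ioo hs]
      have h3 := (hder s hs).hasFDerivAt.fderiv
      rw [h3]
      ext
      simp
  obtain ⟨c, hc1⟩ : (Ioo a b).Nonempty := nonempty_Ioo.2 hlt
  have ha : ∑ z ∈ A, (R Φ ε w a z).2 = ∑ z ∈ A, (R Φ ε w c z).2 := by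
    have h4 : Tendsto (fun s => ∑ z ∈ A, (R Φ ε w s z).2) (𝓝[>] a)
        (𝓝 (∑ z ∈ A, (R Φ ε w a z).2)) := (hc.tendsto a).mono_left nhdsWithin_le_nhds
    refine tendsto_nhds_unique h4 (tendsto_const_nhds.congr' ?_)
    filter_upwards [Ioo_mem_nhdsGT hlt] with s hs using (hf c hc1 s hs)
  have hb : ∑ z ∈ A, (R Φ ε w b z).2 = ∑ z ∈ A, (R Φ ε w c z).2 := by
    have h4 : Tendsto (fun s => ∑ z ∈ A, (R Φ ε w s z).2) (𝓝[<] b)
        (𝓝 (∑ z ∈ A, (R Φ ε w b z).2)) := (hc.tendsto b).mono_left nhdsWithin_le_nhds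
    refine tendsto_nhds_unique h4 (tendsto_const_nhds.congr' ?_)
    filter_upwards [Ioo_mem_nhdsLT hlt] with s hs using (hf c hc1 s hs)
  rw [ha, hb]

end world

end Vale.Agent.P119.RW
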