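import Vale.Agent.P119.Bdl.B1

/-!
# P119: stopped comparison of two solutions of Newton's equations (`helper909`)

`stopped_eq`: two families of trajectories of the same smooth pair force, in which a particle `z` is
followed only until the time `τ z`, and feels before that time only the particles that are still
followed, agree if they agree at time `0`.
-/

open MeasureTheory Filter Topology Set
open scoped NNReal

namespace Vale.Agent.P119.RW

/-- The force on `z` exerted by the particles of `I` that are still followed at time `s`. -/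
noncomputable def facc (Ψ : E3 → ℝ) (ε : ℝ) (I : Finset Ph) (τ : Ph → ℝ) (s : ℝ) (x : Ph → E3)
    (z : Ph) : E3 :=
  -(ε⁻¹ • ∑ z' ∈ I.filter (fun z' => s < τ z'), gradient Ψ (ε⁻¹ • (x z - x z')))

theorem facc_diff {Ψ : E3 → ℝ} {K : ℝ≥0} (hK : LipschitzWith K (gradient Ψ)) (ε : ℝ)
    (I : Finset Ph) (τ : Ph → ℝ) (s : ℝ) (x y : Ph → E3) (z : Ph) {D : ℝ} (hD : 0 ≤ D)
    (hz : ‖x z - y z‖ ≤ D) (h : ∀ z' ∈ I, s < τ z' → ‖x z' - y z'‖ ≤ D) :
    ‖facc Ψ ε I τ s x z - facc Ψ ε I τ s y z‖ ≤ |ε⁻¹| * (I.card * (K * (|ε⁻¹| * (2 * D)))) := by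
  unfold facc
  rw [neg_sub_neg, ← smul_sub, norm_smul, Real.norm_eq_abs, ← Finset.sum_sub_distrib]
  refine mul_le_mul_of_nonneg_left ?_ (abs_nonneg _)
  have h1 : ∀ z' ∈ I.filter (fun z' => s < τ z'),
      ‖gradient Ψ (ε⁻¹ • (y z - y z')) - gradient Ψ (ε⁻¹ • (x z - x z'))‖ ≤
        K * (|ε⁻¹| * (2 * D)) := by
    intro z' hz'
    rw [Finset.mem_filter] at hz'
    have h2 := hK.dist_le_mul (ε⁻¹ • (y z - y z')) (ε⁻¹ • (x z - x z'))
    rw [dist_eq_norm, dist_eq_norm, ← smul_sub, norm_smul, Real.norm_eq_abs] at h2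
    refine h2.trans (mul_le_mul_of_nonneg_left (mul_le_mul_of_nonneg_left ?_ (abs_nonneg _)) K.2)
    have h3 : y z - y z' - (x z - x z') = -(x z - y z) + (x z' - y z') := by abel
    rw [h3]
    refine (norm_add_le _ _).trans ?_
    rw [norm_neg]
    linarith [h z' hz'.1 hz'.2]
  refine (norm_sum_le_of_le _ h1).trans ?_
  rw [Finset.sum_const, nsmul_eq_mul]
  have h4 : ((I.filter (fun z' => s < τ z')).card : ℝ) ≤ I.card := by
    exact_mod_cast Finset.card_filter_le _ _
  exact mul_le_mul_of_nonneg_right h4 (by positivity)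

theorem stopped_eq {Ψ : E3 → ℝ} {K : ℝ≥0} (hK : LipschitzWith K (gradient Ψ)) {ε : ℝ}
    {I : Finset Ph} {T : ℝ} {τ : Ph → ℝ} {x y v u : ℝ → Ph → E3}
    (cx : ∀ z ∈ I, ContinuousOn (fun s => x s z) (Icc 0 T))
    (cy : ∀ z ∈ I, ContinuousOn (fun s => y s z) (Icc 0 T))
    (cv : ∀ z ∈ I, ContinuousOn (fun s => v s z) (Icc 0 T))
    (cu : ∀ z ∈ I, ContinuousOn (fun s => u s z) (Icc 0 T))
    (dx : ∀ z ∈ I, ∀ s ∈ Ico 0 T, s < τ z →
      HasDerivWithinAt (fun s => x s z) (v s z) (Ici s) s)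
    (dv : ∀ z ∈ I, ∀ s ∈ Ico 0 T, s < τ z →
      HasDerivWithinAt (fun s => v s z) (facc Ψ ε I τ s (x s) z) (Ici s) s)
    (dy : ∀ z ∈ I, ∀ s ∈ Ico 0 T, s < τ z →
      HasDerivWithinAt (fun s => y s z) (u s z) (Ici s) s)
    (du : ∀ z ∈ I, ∀ s ∈ Ico 0 T, s < τ z →
      HasDerivWithinAt (fun s => u s z) (facc Ψ ε I τ s (y s) z) (Ici s) s)
    (h0 : ∀ z ∈ I, x 0 z = y 0 z ∧ v 0 z = u 0 z) :
    ∀ z ∈ I, ∀ s ∈ Icc 0 T, s ≤ τ z → x s z = y s z ∧ v s z = u s z := by
  classical
  set st : ℝ → Ph → ℝ := fun s z => min s (max 0 (τ z)) with hst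
  have st0 : ∀ z, st 0 z = 0 := fun z => by
    simp only [hst]; exact min_eq_left (le_max_left _ _)
  have stI : ∀ s ∈ Icc 0 T, ∀ z, st s z ∈ Icc 0 T := by
    intro s hs z
    exact ⟨le_min hs.1 (le_max_left _ _), (min_le_left _ _).trans hs.2⟩
  have stc : ∀ z, Continuous fun s => st s z := fun z => by simp only [hst]; fun_prop
  -- the difference
  set U : ℝ → (I → E3 × E3) := fun s z =>
    (x (st s z) z - y (st s z) z, v (st s z) z - u (st s z) z) with hU
  set U' : ℝ → (I → E3 × E3) := fun s z => if s < τ z then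
    (v s z - u s z, facc Ψ ε I τ s (x s) z - facc Ψ ε I τ s (y s) z) else 0 with hU'
  have hUc : ContinuousOn U (Icc 0 T) := by
    rw [continuousOn_pi]
    intro z
    have hm : MapsTo (fun s => st s z) (Icc 0 T) (Icc 0 T) := fun s hs => stI s hs z
    exact ((((cx z z.2).comp (stc z).continuousOn hm).sub
      ((cy z z.2).comp (stc z).continuousOn hm))).prodMk
      (((cv z z.2).comp (stc z).continuousOn hm).sub ((cu z z.2).comp (stc z).continuousOn hm))
  have hUd : ∀ s ∈ Ico 0 T, HasDerivWithinAt U (U' s) (Ici s) s := by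
    intro s hs
    rw [hasDerivWithinAt_pi]
    intro z
    by_cases hz : s < τ z
    · have h1 : HasDerivWithinAt (fun s => (x s z - y s z, v s z - u s z))
          (v s z - u s z, facc Ψ ε I τ s (x s) z - facc Ψ ε I τ s (y s) z) (Ici s) s :=
        ((dx z z.2 s hs hz).sub (dy z z.2 s hs hz)).prodMk
          ((dv z z.2 s hs hz).sub (du z z.2 s hs hz))
      simp only [hU', hz, if_true]
      refine h1.congr_of_eventuallyEq ?_ ?_
      · have h2 : ∀ᶠ r in 𝓝[Ici s] s, r < τ z := nhdsWithin_le_nhds (Iio_mem_nhds hz)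
        filter_upwards [h2] with r hr
        have h3 : st r z = r := min_eq_left (hr.le.trans (le_max_right _ _))
        simp only [hU, h3]
      · have h3 : st s z = s := min_eq_left (hz.le.trans (le_max_right _ _))
        simp only [hU, h3]
    · simp only [hU', hz, if_false]
      have h4 : ∀ r ∈ Ici s, st r z = max 0 (τ z) := by
        intro r hr
        refine min_eq_right (max_le ?_ ?_)
        · exact hs.1.trans hr
        · exact (not_lt.1 hz).trans hr
      refine (hasDerivWithinAt_const s (Ici s)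
        ((x (max 0 (τ z)) z - y (max 0 (τ z)) z, v (max 0 (τ z)) z - u (max 0 (τ z)) z) :
          E3 × E3)).congr ?_ ?_
      · intro r hr
        simp only [hU, h4 r hr]
      · simp only [hU, h4 s self_mem_Ici]
  set C : ℝ := 1 + |ε⁻¹| * (I.card * (K * (|ε⁻¹| * 2))) with hC
  have hC0 : 0 ≤ |ε⁻¹| * (I.card * (K * (|ε⁻¹| * 2))) := by positivity
  have hb : ∀ s ∈ Ico 0 T, ‖U' s‖ ≤ C * ‖U s‖ + 0 := by
    intro s hs
    rw [add_zero, pi_norm_le_iff_of_nonneg (by positivity)]
    intro z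
    by_cases hz : s < τ z
    · simp only [hU', hz, if_true]
      have hxs : ∀ z' : I, s < τ z' → ‖x s z' - y s z'‖ ≤ ‖U s‖ ∧ ‖v s z' - u s z'‖ ≤ ‖U s‖ := by
        intro z' hz'
        have h3 : st s z' = s := min_eq_left (hz'.le.trans (le_max_right _ _))
        have h4 := norm_le_pi_norm (U s) z'
        simp only [hU, h3] at h4
        exact ⟨(norm_fst_le _).trans h4, (norm_snd_le _).trans h4⟩
      rw [Prod.norm_def]
      refine max_le ?_ ?_
      · refine (hxs z hz).2.trans ?_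
        nlinarith [norm_nonneg (U s)]
      · refine (facc_diff hK ε I τ s (x s) (y s) z (norm_nonneg (U s)) (hxs z hz).1
          (fun z' hz' h => (hxs ⟨z', hz'⟩ h).1)).trans ?_
        have : |ε⁻¹| * (I.card * (K * (|ε⁻¹| * (2 * ‖U s‖)))) =
          |ε⁻¹| * (I.card * (K * (|ε⁻¹| * 2))) * ‖U s‖ := by ring
        rw [this]
        nlinarith [norm_nonneg (U s)]
    · simp only [hU', hz, if_false, norm_zero]
      positivity
  have hU0 : ‖U 0‖ ≤ 0 := by
    rw [pi_norm_le_iff_of_nonneg le_rfl]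
    intro z
    have h1 := h0 z z.2
    simp only [hU, st0, h1.1, h1.2, sub_self, Prod.mk_zero_zero, norm_zero, le_refl]
  have key := norm_le_gronwallBound_of_norm_deriv_right_le hUc hUd hU0 hb
  intro z hz s hs hsz
  have h5 := key s hs
  rw [gronwallBound_ε0_δ0] at h5
  have h6 := (norm_le_pi_norm (U s) ⟨z, hz⟩).trans h5
  have h3 : st s z = s := min_eq_left (hsz.trans (le_max_right _ _))
  simp only [hU, h3] at h6
  have h7 := norm_le_zero_iff.1 h6
  rw [Prod.mk_eq_zero] at h7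
  exact ⟨sub_eq_zero.1 h7.1, sub_eq_zero.1 h7.2⟩

end Vale.Agent.P119.RW
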