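import Vale.Agent.P119.Real.World

/-!
# P119: locality of the real world (`helper909`)

* `cone_eq` (cone uniqueness): two worlds that contain `A`; the particle `z ∈ A` matters until the
  time `τ z`; if, in both worlds, the particles of `A` that still matter have no contact with
  anything else, they have the same paths (until `τ`) in both worlds;
* `decouple`: a subset without contact with the rest evolves as if it were alone;
* `glue`: if the isolated evolutions of `A` and `B` have no contact, they are the evolution of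
  `A ∪ B`.
-/

open MeasureTheory Filter Topology Set
open scoped NNReal

namespace Vale.Agent.P119.RW

variable {Φ : E3 → ℝ} {ε : ℝ}

/-- `z` and `z'` are in contact (within the range of the force) at time `s` in the world `w`. -/
def Contact (Φ : E3 → ℝ) (ε : ℝ) (w : Finset Ph) (s : ℝ) (z z' : Ph) : Prop :=
  ‖(R Φ ε w s z).1 - (R Φ ε w s z').1‖ < ε

theorem Contact.symm {w : Finset Ph} {s : ℝ} {z z' : Ph} (h : Contact Φ ε w s z z') :
    Contact Φ ε w s z' z := by
  unfold Contact at *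
  rwa [norm_sub_rev]

theorem far_scaled (hε : 0 < ε) {y : E3} (h : ε ≤ ‖y‖) : 1 ≤ ‖ε⁻¹ • y‖ := by
  rw [norm_smul, norm_inv, Real.norm_eq_abs, abs_of_pos hε, inv_mul_eq_div, le_div_iff₀ hε,
    one_mul]
  exact h

/-- The full force is the force of the followed particles if there is no other contact. -/
theorem acc_eq_facc {Ψ : E3 → ℝ} (hΨ : IsPotential Ψ) (hε : 0 < ε) {w A : Finset Ph} (hA : A ⊆ w)
    {τ : Ph → ℝ} {s : ℝ} {x : Ph → E3} {z : Ph}
    (H : ∀ z' ∈ w, z' ≠ z → (z' ∈ A → τ z' ≤ s) → ε ≤ ‖x z - x z'‖) :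
    acc Ψ ε w x z = facc Ψ ε A τ s x z := by
  classical
  unfold acc facc
  congr 2
  symm
  refine Finset.sum_subset (fun z' hz' => hA (Finset.mem_filter.1 hz').1) fun z' hz' hn => ?_
  by_cases hne : z' = z
  · rw [hne, sub_self, smul_zero, gradient_zero hΨ.radial']
  · refine gradient_out hΨ (far_scaled hε (H z' hz' hne fun hzA => ?_))
    by_contra hcon
    exact hn (Finset.mem_filter.2 ⟨hzA, not_le.1 hcon⟩)

theorem cone_eq (hΦ : IsPotential Φ) (hε : 0 < ε) {w₁ w₂ A : Finset Ph} (h₁ : Excl ε w₁)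
    (h₂ : Excl ε w₂) (hA₁ : A ⊆ w₁) (hA₂ : A ⊆ w₂) {τ : Ph → ℝ} {T : ℝ}
    (H₁ : ∀ s ∈ Ico 0 T, ∀ z ∈ A, s < τ z → ∀ z' ∈ w₁, z' ≠ z → (z' ∈ A → τ z' ≤ s) →
      ¬Contact Φ ε w₁ s z z')
    (H₂ : ∀ s ∈ Ico 0 T, ∀ z ∈ A, s < τ z → ∀ z' ∈ w₂, z' ≠ z → (z' ∈ A → τ z' ≤ s) →
      ¬Contact Φ ε w₂ s z z') :
    ∀ z ∈ A, ∀ s ∈ Icc 0 T, s ≤ τ z → R Φ ε w₁ s z = R Φ ε w₂ s z := by
  obtain ⟨k₁, hk₁, H3⟩ := R_trunc hΦ hε h₁
  obtain ⟨k₂, hk₂, H4⟩ := R_trunc hΦ hε h₂
  set k := max k₁ k₂ with hk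
  have hk0 : 0 ≤ k := hk₁.trans (le_max_left _ _)
  have hT := trunc_isPotential hΦ hk0
  obtain ⟨K, M, hK, hM⟩ := gradient_lipschitz_bounded (trunc_smooth hΦ k) hT.vanishing
  obtain ⟨W₁, -⟩ := H3 k (le_max_left _ _)
  obtain ⟨W₂, -⟩ := H4 k (le_max_right _ _)
  have key := stopped_eq hK (ε := ε) (I := A) (T := T) (τ := τ)
    (x := fun s z => (R Φ ε w₁ s z).1) (y := fun s z => (R Φ ε w₂ s z).1)
    (v := fun s z => (R Φ ε w₁ s z).2) (u := fun s z => (R Φ ε w₂ s z).2)
    (fun z hz => (W₁.continuous_pos (hA₁ hz)).continuousOn)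
    (fun z hz => (W₂.continuous_pos (hA₂ hz)).continuousOn)
    (fun z hz => (W₁.continuous_vel (hA₁ hz)).continuousOn)
    (fun z hz => (W₂.continuous_vel (hA₂ hz)).continuousOn)
    (fun z hz s hs _ => (W₁.pos z (hA₁ hz) s).hasDerivWithinAt)
    (fun z hz s hs hsz => by
      rw [← acc_eq_facc hT hε hA₁ (x := fun z => (R Φ ε w₁ s z).1)
        (fun z' hz' hne h => not_lt.1 (H₁ s hs z hz hsz z' hz' hne h))]
      exact (W₁.vel z (hA₁ hz) s).hasDerivWithinAt)
    (fun z hz s hs _ => (W₂.pos z (hA₂ hz) s).hasDerivWithinAt)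
    (fun z hz s hs hsz => by
      rw [← acc_eq_facc hT hε hA₂ (x := fun z => (R Φ ε w₂ s z).1)
        (fun z' hz' hne h => not_lt.1 (H₂ s hs z hz hsz z' hz' hne h))]
      exact (W₂.vel z (hA₂ hz) s).hasDerivWithinAt)
    (fun z hz => by
      simp only [W₁.init z (hA₁ hz), W₂.init z (hA₂ hz), and_self])
  intro z hz s hs hsz
  have := key z hz s hs hsz
  exact Prod.ext this.1 this.2

/-- A subset without contact with the rest evolves as if it were alone. -/
theorem decouple (hΦ : IsPotential Φ) (hε : 0 < ε) {w A : Finset Ph} (hw : Excl ε w)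
    (hA : A ⊆ w) {T : ℝ}
    (H : ∀ s ∈ Ico 0 T, ∀ z ∈ A, ∀ z' ∈ w, z' ∉ A → ¬Contact Φ ε w s z z') :
    ∀ z ∈ A, ∀ s ∈ Icc 0 T, R Φ ε w s z = R Φ ε A s z := by
  intro z hz s hs
  refine cone_eq hΦ hε hw (hw.mono hA) hA (Finset.Subset.refl A) (τ := fun _ => T + 1) (T := T)
    ?_ ?_ z hz s hs (by linarith [hs.2])
  · intro s hs z hz _ z' hz' _ h
    exact H s hs z hz z' hz' (fun h' => by have := h h'; linarith [hs.2])
  · intro s hs z hz _ z' hz' _ h
    have := h hz'
    linarith [hs.2]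

/-- Isolated evolutions without contact are the joint evolution. -/
theorem glue (hΦ : IsPotential Φ) (hε : 0 < ε) {A B : Finset Ph} (hw : Excl ε (A ∪ B))
    (hAB : Disjoint A B) {T : ℝ}
    (H : ∀ s ∈ Ico 0 T, ∀ z ∈ A, ∀ z' ∈ B, ε ≤ ‖(R Φ ε A s z).1 - (R Φ ε B s z').1‖) :
    ∀ s ∈ Icc 0 T, (∀ z ∈ A, R Φ ε (A ∪ B) s z = R Φ ε A s z) ∧
      ∀ z ∈ B, R Φ ε (A ∪ B) s z = R Φ ε B s z := by
  classical
  have hA : Excl ε A := hw.mono Finset.subset_union_left
  have hB : Excl ε B := hw.mono Finset.subset_union_right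
  obtain ⟨k₀, hk₀, H0⟩ := R_trunc hΦ hε hw
  obtain ⟨k₁, hk₁, H3⟩ := R_trunc hΦ hε hA
  obtain ⟨k₂, hk₂, H4⟩ := R_trunc hΦ hε hB
  set k := max k₀ (max k₁ k₂) with hk
  have hk0 : 0 ≤ k := hk₀.trans (le_max_left _ _)
  have hT := trunc_isPotential hΦ hk0
  obtain ⟨K, M, hK, hM⟩ := gradient_lipschitz_bounded (trunc_smooth hΦ k) hT.vanishing
  obtain ⟨W, -⟩ := H0 k (le_max_left _ _)
  obtain ⟨W₁, -⟩ := H3 k ((le_max_left _ _).trans (le_max_right _ _))
  obtain ⟨W₂, -⟩ := H4 k ((le_max_right _ _).trans (le_max_right _ _))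
  -- the glued family
  set γ : ℝ → Ph → Ph := fun s z => if z ∈ A then R Φ ε A s z else R Φ ε B s z with hγ
  have gA : ∀ s z, z ∈ A → γ s z = R Φ ε A s z := fun s z hz => by simp only [hγ, hz, if_true]
  have gB : ∀ s z, z ∈ B → γ s z = R Φ ε B s z := fun s z hz => by
    have : z ∉ A := Finset.disjoint_right.1 hAB hz
    simp only [hγ, this, if_false]
  have hacc : ∀ s ∈ Ico 0 T, (∀ z ∈ A, acc (trunc Φ k) ε A (fun z => (R Φ ε A s z).1) z =
      facc (trunc Φ k) ε (A ∪ B) (fun _ => T + 1) s (fun z => (γ s z).1) z) ∧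
      ∀ z ∈ B, acc (trunc Φ k) ε B (fun z => (R Φ ε B s z).1) z =
      facc (trunc Φ k) ε (A ∪ B) (fun _ => T + 1) s (fun z => (γ s z).1) z := by
    intro s hs
    have hf : (A ∪ B).filter (fun _ : Ph => s < T + 1) = A ∪ B :=
      Finset.filter_true_of_mem fun _ _ => by linarith [hs.2]
    refine ⟨fun z hz => ?_, fun z hz => ?_⟩
    · unfold acc facc
      beta_reduce
      rw [hf, Finset.sum_union hAB, gA s z hz]
      have h1 : ∑ z' ∈ B, gradient (trunc Φ k) (ε⁻¹ • ((R Φ ε A s z).1 - (γ s z').1)) = 0 := by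
        refine Finset.sum_eq_zero fun z' hz' => ?_
        rw [gB s z' hz']
        exact gradient_out hT (far_scaled hε (H s hs z hz z' hz'))
      rw [h1, add_zero]
      congr 2
      exact Finset.sum_congr rfl fun z' hz' => by rw [gA s z' hz']
    · unfold acc facc
      beta_reduce
      rw [hf, Finset.sum_union hAB, gB s z hz]
      have h1 : ∑ z' ∈ A, gradient (trunc Φ k) (ε⁻¹ • ((R Φ ε B s z).1 - (γ s z').1)) = 0 := by
        refine Finset.sum_eq_zero fun z' hz' => ?_
        rw [gA s z' hz']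
        refine gradient_out hT (far_scaled hε ?_)
        rw [norm_sub_rev]
        exact H s hs z' hz' z hz
      rw [h1, zero_add]
      congr 2
      exact Finset.sum_congr rfl fun z' hz' => by rw [gB s z' hz']
  have key := stopped_eq hK (ε := ε) (I := A ∪ B) (T := T) (τ := fun _ => T + 1)
    (x := fun s z => (R Φ ε (A ∪ B) s z).1) (y := fun s z => (γ s z).1)
    (v := fun s z => (R Φ ε (A ∪ B) s z).2) (u := fun s z => (γ s z).2)
    (fun z hz => (W.continuous_pos hz).continuousOn)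
    (fun z hz => by
      rcases Finset.mem_union.1 hz with h | h
      · simp only [gA _ z h]; exact (W₁.continuous_pos h).continuousOn
      · simp only [gB _ z h]; exact (W₂.continuous_pos h).continuousOn)
    (fun z hz => (W.continuous_vel hz).continuousOn)
    (fun z hz => by
      rcases Finset.mem_union.1 hz with h | h
      · simp only [gA _ z h]; exact (W₁.continuous_vel h).continuousOn
      · simp only [gB _ z h]; exact (W₂.continuous_vel h).continuousOn)
    (fun z hz s hs _ => (W.pos z hz s).hasDerivWithinAt)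
    (fun z hz s hs hsz => by
      rw [← acc_eq_facc hT hε (Finset.Subset.refl (A ∪ B)) (x := fun z => (R Φ ε (A ∪ B) s z).1)
        (fun z' hz' hne h => by have := h hz'; linarith [hs.2])]
      exact (W.vel z hz s).hasDerivWithinAt)
    (fun z hz s hs _ => by
      rcases Finset.mem_union.1 hz with h | h
      · simp only [gA _ z h]; exact (W₁.pos z h s).hasDerivWithinAt
      · simp only [gB _ z h]; exact (W₂.pos z h s).hasDerivWithinAt)
    (fun z hz s hs hsz => by
      rcases Finset.mem_union.1 hz with h | h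
      · rw [← (hacc s hs).1 z h]
        simp only [gA _ z h]; exact (W₁.vel z h s).hasDerivWithinAt
      · rw [← (hacc s hs).2 z h]
        simp only [gB _ z h]; exact (W₂.vel z h s).hasDerivWithinAt)
    (fun z hz => by
      rcases Finset.mem_union.1 hz with h | h
      · simp only [gA _ z h, W.init z hz, W₁.init z h, and_self]
      · simp only [gB _ z h, W.init z hz, W₂.init z h, and_self])
  intro s hs
  refine ⟨fun z hz => ?_, fun z hz => ?_⟩
  · have h5 := key z (Finset.mem_union_left _ hz) s hs (by linarith [hs.2])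
    simp only [gA _ z hz] at h5
    exact Prod.ext h5.1 h5.2
  · have h5 := key z (Finset.mem_union_right _ hz) s hs (by linarith [hs.2])
    simp only [gB _ z hz] at h5
    exact Prod.ext h5.1 h5.2

/-- A particle without contact flies freely. -/
theorem free_of_no_contact (hΦ : IsPotential Φ) (hε : 0 < ε) {w : Finset Ph} (hw : Excl ε w)
    {z : Ph} (hz : z ∈ w) {a b : ℝ}
    (H : ∀ s ∈ Ioo a b, ∀ z' ∈ w, z' ≠ z → ¬Contact Φ ε w s z z') :
    ∀ s ∈ Icc a b, R Φ ε w s z =
      ((R Φ ε w a z).1 + (s - a) • (R Φ ε w a z).2, (R Φ ε w a z).2) := by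
  have W := R_isWorld hΦ hε hw
  have hv : ∀ s ∈ Icc a b, (R Φ ε w s z).2 = (R Φ ε w a z).2 := by
    refine constant_of_derivWithin_zero (f := fun s => (R Φ ε w s z).2) ?_ ?_
    · exact fun s hs => (W.vel z hz s).differentiableAt.differentiableWithinAt
    · intro s hs
      have h1 : acc Φ ε w (fun z => (R Φ ε w s z).1) z = 0 := by
        -- by continuity of the distances, at the end point as well
        have h2 : ∀ z' ∈ w, z' ≠ z → ε ≤ ‖(R Φ ε w s z).1 - (R Φ ε w s z').1‖ := by
          intro z' hz' hne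
          rcases eq_or_lt_of_le hs.1 with h | h
          · -- `s = a`
            have h3 : ∀ r ∈ Ioo a b, ε ≤ ‖(R Φ ε w r z).1 - (R Φ ε w r z').1‖ :=
              fun r hr => not_lt.1 (H r hr z' hz' hne)
            have h4 : Continuous fun r => ‖(R Φ ε w r z).1 - (R Φ ε w r z').1‖ :=
              ((W.continuous_pos hz).sub (W.continuous_pos hz')).norm
            have h5 : Tendsto (fun r => ‖(R Φ ε w r z).1 - (R Φ ε w r z').1‖) (𝓝[>] a)
                (𝓝 ‖(R Φ ε w a z).1 - (R Φ ε w a z').1‖) :=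
              h4.continuousAt.tendsto.mono_left nhdsWithin_le_nhds
            have hab' : a < b := by rw [h]; exact hs.2
            have h6 := ge_of_tendsto h5 (by
              filter_upwards [Ioo_mem_nhdsGT hab'] with r hr using h3 r hr)
            rw [← h]
            exact h6
          · exact not_lt.1 (H s ⟨h, hs.2⟩ z' hz' hne)
        unfold acc
        rw [Finset.sum_eq_zero, smul_zero, neg_zero]
        intro z' hz'
        by_cases hne : z' = z
        · rw [hne, sub_self, smul_zero, gradient_zero hΦ.radial']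
        · exact gradient_out hΦ (far_scaled hε (h2 z' hz' hne))
      have h7 := (W.vel z hz s).hasDerivWithinAt (s := Icc a b)
      rw [h1] at h7
      exact h7.derivWithin (uniqueDiffOn_Icc (lt_of_le_of_lt hs.1 hs.2) s
        ⟨hs.1, hs.2.le⟩)
  intro s hs
  refine Prod.ext ?_ (hv s hs)
  have h8 : ∀ s ∈ Icc a b, (R Φ ε w s z).1 - (s - a) • (R Φ ε w a z).2 =
      (R Φ ε w a z).1 - (a - a) • (R Φ ε w a z).2 := by
    refine constant_of_derivWithin_zero
      (f := fun s => (R Φ ε w s z).1 - (s - a) • (R Φ ε w a z).2) ?_ ?_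
    · intro s hs
      exact ((W.pos z hz s).differentiableAt.sub (by fun_prop)).differentiableWithinAt
    · intro s hs
      have h9 : HasDerivAt (fun s => (R Φ ε w s z).1 - (s - a) • (R Φ ε w a z).2)
          ((R Φ ε w s z).2 - (1 : ℝ) • (R Φ ε w a z).2) s :=
        (W.pos z hz s).sub (((hasDerivAt_id s).sub_const a).smul_const _)
      rw [hv s ⟨hs.1, hs.2.le⟩, one_smul, sub_self] at h9
      exact h9.hasDerivWithinAt.derivWithin (uniqueDiffOn_Icc (lt_of_le_of_lt hs.1 hs.2) s
        ⟨hs.1, hs.2.le⟩)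
  have h10 := h8 s hs
  rw [sub_self, zero_smul, sub_zero] at h10
  change (R Φ ε w s z).1 = _
  rw [← h10]
  exact (sub_add_cancel _ _).symm

end Vale.Agent.P119.RW
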