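import Vale.Agent.P119.Real.World

/-!
# P119: joint continuity, measurability and Liouville bound of the flow (`helper909`)
-/

open MeasureTheory Filter Topology Set
open scoped NNReal ENNReal

namespace Vale.Agent.P119.RW

variable {Φ : E3 → ℝ} {ε : ℝ} {n : ℕ}

theorem isOpen_excl (ε : ℝ) (n : ℕ) : IsOpen (excl ε n) := by
  have : excl ε n = ⋂ i : Fin n, ⋂ j : Fin n, {Z | i ≠ j → ε < ‖(Z i).1 - (Z j).1‖} := by
    ext Z; simp [excl]
  rw [this]
  refine isOpen_iInter_of_finite fun i => isOpen_iInter_of_finite fun j => ?_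
  by_cases h : i = j
  · simp [h]
  · simp only [h, not_false_eq_true, forall_const, ne_eq]
    exact isOpen_lt continuous_const (by fun_prop)

/-- Solutions of a Lipschitz equation depend continuously on time and initial value. -/
theorem joint_continuous {G : (Fin n → E3) → (Fin n → E3)} {K : ℝ≥0} (hG : LipschitzWith K G)
    {S : ℝ → (Fin n → Ph) → (Fin n → Ph)} (hS0 : ∀ Z, S 0 Z = Z)
    (hS : ∀ Z t, HasDerivAt (fun τ => S τ Z) (cfield G (S t Z)) t) :
    Continuous fun p : ℝ × (Fin n → Ph) => S p.1 p.2 := by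
  have hL := cfield_lipschitz hG
  have hL' : LipschitzWith (max 1 K) (fun z => -cfield G z) := hL.neg
  have hd : ∀ Z s, HasDerivAt (fun τ => S (-τ) Z) (-cfield G (S (-s) Z)) s := by
    intro Z s
    have h4 := HasDerivAt.scomp s (hS Z (-s)) (hasDerivAt_neg s)
    rw [neg_one_smul] at h4
    exact h4
  -- Lipschitz bound
  have hlip : ∀ b : ℝ, 0 ≤ b → ∀ t ∈ Icc (-b) b, ∀ Z W, dist (S t Z) (S t W) ≤
      Real.exp (((max 1 K : ℝ≥0) : ℝ) * b) * dist Z W := by
    intro b hb t ht Z W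
    rcases le_total 0 t with h0 | h0
    · have h3 := dist_le_of_trajectories_ODE (v := fun _ => cfield G) (K := max 1 K)
        (f := fun τ => S τ Z) (g := fun τ => S τ W) (a := 0) (b := t) (δ := dist Z W) (fun _ => hL)
        (fun s _ => (hS Z s).continuousAt.continuousWithinAt)
        (fun s _ => (hS Z s).hasDerivWithinAt)
        (fun s _ => (hS W s).continuousAt.continuousWithinAt)
        (fun s _ => (hS W s).hasDerivWithinAt) (by simp only [hS0, le_refl]) t ⟨h0, le_rfl⟩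
      refine h3.trans ?_
      rw [mul_comm, sub_zero]
      have : ((max 1 K : ℝ≥0) : ℝ) * t ≤ ((max 1 K : ℝ≥0) : ℝ) * b :=
        mul_le_mul_of_nonneg_left ht.2 (max 1 K).2
      exact mul_le_mul_of_nonneg_right (Real.exp_le_exp.2 this) dist_nonneg
    · have h3 := dist_le_of_trajectories_ODE (v := fun _ z => -cfield G z) (K := max 1 K)
        (f := fun τ => S (-τ) Z) (g := fun τ => S (-τ) W) (a := 0) (b := -t)
        (δ := dist Z W) (fun _ => hL')
        (fun s _ => (hd Z s).continuousAt.continuousWithinAt)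
        (fun s _ => (hd Z s).hasDerivWithinAt)
        (fun s _ => (hd W s).continuousAt.continuousWithinAt)
        (fun s _ => (hd W s).hasDerivWithinAt)
        (by simp only [neg_zero, hS0, le_refl]) (-t) ⟨by linarith, le_rfl⟩
      simp only [neg_neg] at h3
      refine h3.trans ?_
      rw [mul_comm, sub_zero]
      have : ((max 1 K : ℝ≥0) : ℝ) * -t ≤ ((max 1 K : ℝ≥0) : ℝ) * b :=
        mul_le_mul_of_nonneg_left (by linarith [ht.1]) (max 1 K).2
      exact mul_le_mul_of_nonneg_right (Real.exp_le_exp.2 this) dist_nonneg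
  rw [continuous_iff_continuousAt]
  rintro ⟨t₀, Z₀⟩
  set b : ℝ := |t₀| + 1 with hb
  have hb0 : 0 ≤ b := by positivity
  have h5 : ContinuousOn (fun p : (Fin n → Ph) × ℝ => S p.2 p.1) (univ ×ˢ Icc (-b) b) := by
    refine continuousOn_prod_of_continuousOn_lipschitzOnWith _
      (Real.toNNReal (Real.exp (((max 1 K : ℝ≥0) : ℝ) * b))) (fun Z _ => ?_) (fun t ht => ?_)
    · exact fun t _ => (hS Z t).continuousAt.continuousWithinAt
    · refine LipschitzOnWith.of_dist_le_mul fun Z _ W _ => ?_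
      rw [Real.coe_toNNReal _ (Real.exp_pos _).le]
      exact hlip b hb0 t ht Z W
  have h6 : (univ ×ˢ Icc (-b) b : Set ((Fin n → Ph) × ℝ)) ∈ 𝓝 (Z₀, t₀) := by
    rw [nhds_prod_eq]
    refine prod_mem_prod univ_mem (Icc_mem_nhds ?_ ?_)
    · have := neg_abs_le t₀; linarith
    · have := le_abs_self t₀; linarith
  have h7 := h5.continuousAt h6
  have h8 : ContinuousAt (fun p : ℝ × (Fin n → Ph) => (p.2, p.1)) (t₀, Z₀) :=
    continuous_swap.continuousAt
  exact ContinuousAt.comp (f := fun p : ℝ × (Fin n → Ph) => (p.2, p.1))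
    (g := fun p : (Fin n → Ph) × ℝ => S p.2 p.1) h7 h8

/-- Local description of the flow on `excl`: near every configuration it is a jointly continuous
flow that preserves the volume. -/
theorem local_flow (hΦ : IsPotential Φ) (hε : 0 < ε) (k : ℝ) (hk : 0 ≤ k) :
    ∃ (U : Set (Fin n → Ph)) (S : ℝ → (Fin n → Ph) → (Fin n → Ph)), IsOpen U ∧
      (Continuous fun p : ℝ × (Fin n → Ph) => S p.1 p.2) ∧
      (∀ t, 0 ≤ t → (volume : Measure (Fin n → Ph)).map (S t) ≤ volume) ∧
      (∀ Z ∈ excl ε n, Z ∈ U → ∀ t, flow Φ ε t Z = S t Z) ∧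
      U = shell n hΦ.bddBelow.choose k := by
  obtain ⟨hm, hΦm⟩ := hΦ.bddBelow.choose_spec
  obtain ⟨S, hS0, -, hSc, hvol, htraj, hflow⟩ := exists_shell_flow (n := n) hΦ hm hk hΦm hε
  have hT := trunc_isPotential hΦ hk
  obtain ⟨K, M, hK, hM⟩ := gradient_lipschitz_bounded (trunc_smooth hΦ k) hT.vanishing
  obtain ⟨K', hK'⟩ := accG_lipschitz (n := n) hK ε
  refine ⟨shell n hΦ.bddBelow.choose k, S, isOpen_shell _ _, ?_, hvol,
    fun Z hZ hZU t => (hflow Z hZ hZU t).1, rfl⟩
  refine joint_continuous hK' hS0 fun Z t => ?_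
  rw [hasDerivAt_pi]
  intro i
  exact ((htraj Z).pos t i).prodMk ((htraj Z).vel t i)

/-- The flow is jointly continuous in time and initial configuration. -/
theorem continuousOn_flow (hΦ : IsPotential Φ) (hε : 0 < ε) :
    ContinuousOn (fun p : ℝ × (Fin n → Ph) => flow Φ ε p.1 p.2) (univ ×ˢ excl ε n) := by
  rintro ⟨t₀, Z₀⟩ ⟨-, hZ₀⟩
  obtain ⟨hm, hΦm⟩ := hΦ.bddBelow.choose_spec
  have hkin : 0 ≤ kinE Z₀ := Finset.sum_nonneg fun i _ => by positivity
  obtain ⟨U, S, hU, hS, -, hfl, hUe⟩ := local_flow (n := n) hΦ hε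
    (kinE Z₀ + (n : ℝ) ^ 2 * hΦ.bddBelow.choose + 1) (by positivity)
  have hZU : Z₀ ∈ U := by
    rw [hUe]
    change kinE Z₀ + (n : ℝ) ^ 2 * hΦ.bddBelow.choose <
      kinE Z₀ + (n : ℝ) ^ 2 * hΦ.bddBelow.choose + 1
    linarith
  refine ContinuousAt.continuousWithinAt ?_
  refine ContinuousAt.congr hS.continuousAt ?_
  have h1 : (univ ×ˢ (excl ε n ∩ U) : Set (ℝ × (Fin n → Ph))) ∈ 𝓝 (t₀, Z₀) :=
    (isOpen_univ.prod ((isOpen_excl ε n).inter hU)).mem_nhds ⟨trivial, hZ₀, hZU⟩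
  filter_upwards [h1] with p hp
  exact (hfl p.2 hp.2.1 hp.2.2 p.1).symm

open Classical in
/-- The flow, extended by a constant outside `excl`, is jointly measurable. -/
theorem measurable_flow_ite (hΦ : IsPotential Φ) (hε : 0 < ε) :
    Measurable fun p : ℝ × (Fin n → Ph) =>
      if p.2 ∈ excl ε n then flow Φ ε p.1 p.2 else p.2 := by
  have h := (continuousOn_flow (n := n) hΦ hε).measurable_piecewise (g := fun p => p.2)
    continuous_snd.continuousOn (MeasurableSet.univ.prod (measurableSet_excl ε n))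
  convert h using 1
  funext p
  by_cases hp : p.2 ∈ excl ε n
  · have : p ∈ univ ×ˢ excl ε n := ⟨trivial, hp⟩
    rw [Set.piecewise_eq_of_mem _ _ _ this, if_pos hp]
  · have : p ∉ univ ×ˢ excl ε n := fun h => hp h.2
    rw [Set.piecewise_eq_of_notMem _ _ _ this, if_neg hp]

/-- Liouville: the flow does not increase volumes. -/
theorem lintegral_flow_le (hΦ : IsPotential Φ) (hε : 0 < ε) {t : ℝ} (ht : 0 ≤ t)
    {F : (Fin n → Ph) → ℝ≥0∞} (hF : Measurable F) :
    ∫⁻ Z in excl ε n, F (flow Φ ε t Z) ≤ ∫⁻ Z, F Z := by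
  classical
  obtain ⟨hm, hΦm⟩ := hΦ.bddBelow.choose_spec
  have hU : excl ε n = ⋃ k : ℕ, (excl ε n ∩ shell n hΦ.bddBelow.choose k) := by
    rw [← inter_iUnion]
    symm
    rw [inter_eq_left]
    intro Z _
    obtain ⟨k, hk⟩ := exists_nat_gt (kinE Z + (n : ℝ) ^ 2 * hΦ.bddBelow.choose)
    exact mem_iUnion.2 ⟨k, hk⟩
  have hdir : Directed (· ⊆ ·) fun k : ℕ => (excl ε n ∩ shell n hΦ.bddBelow.choose k) := by
    refine (monotone_nat_of_le_succ fun k => ?_).directed_le
    refine inter_subset_inter_right _ fun Z hZ => ?_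
    have h1 : kinE Z + (n : ℝ) ^ 2 * hΦ.bddBelow.choose < k := hZ
    change kinE Z + (n : ℝ) ^ 2 * hΦ.bddBelow.choose < ((k + 1 : ℕ) : ℝ)
    push_cast
    linarith
  rw [hU, setLIntegral_iUnion_of_directed _ hdir]
  refine iSup_le fun k => ?_
  obtain ⟨U, S, hUo, hS, hvol, hfl, hUe⟩ := local_flow (n := n) hΦ hε (k : ℝ) (Nat.cast_nonneg k)
  have hSm : Measurable (S t) := (hS.comp (Continuous.prodMk_right t)).measurable
  have h1 : ∫⁻ Z in excl ε n ∩ shell n hΦ.bddBelow.choose k, F (flow Φ ε t Z) =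
      ∫⁻ Z in excl ε n ∩ shell n hΦ.bddBelow.choose k, F (S t Z) := by
    refine setLIntegral_congr_fun ((measurableSet_excl ε n).inter (isOpen_shell _ _).measurableSet)
      fun Z hZ => ?_
    rw [hfl Z hZ.1 (by rw [hUe]; exact hZ.2) t]
  rw [h1]
  calc ∫⁻ Z in excl ε n ∩ shell n hΦ.bddBelow.choose k, F (S t Z) ≤ ∫⁻ Z, F (S t Z) :=
        setLIntegral_le_lintegral _ _
    _ = ∫⁻ Z, F Z ∂(volume : Measure (Fin n → Ph)).map (S t) := (lintegral_map hF hSm).symm
    _ ≤ ∫⁻ Z, F Z := lintegral_mono' (hvol t ht) le_rfl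

end Vale.Agent.P119.RW
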